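import Vale.Agent.P237.Quant.TailData.N49.tailN49N0Part0
import Vale.Agent.P237.Quant.TailData.N49.tailN49N0Part1
import Vale.Agent.P237.Quant.TailData.N49.tailN49N0Part2
import Vale.Agent.P237.Quant.TailData.N49.tailN49N0Part3
import Vale.Agent.P237.Quant.TailData.N49.tailN49N0Part4

/-!
Tail calibration tailN49N0 in dimension 49. The check. Generated data, checked by the kernel.
-/

set_option maxRecDepth 100000
set_option linter.all false

namespace Vale.Agent.P237.Quant.TailData

open TailCert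


/-- The calibration. -/
noncomputable def tailN49N0 : Cfg :=
  tailN49N0Base.withIvals (List.flatten [tailN49N0L0, tailN49N0L1, tailN49N0L2, tailN49N0L3, tailN49N0L4, tailN49N0L5, tailN49N0L6, tailN49N0L7, tailN49N0L8, tailN49N0L9, tailN49N0L10, tailN49N0L11, tailN49N0L12, tailN49N0L13, tailN49N0L14, tailN49N0L15, tailN49N0L16, tailN49N0L17, tailN49N0L18, tailN49N0L19])

theorem tailN49N0_parts : [tailN49N0L0, tailN49N0L1, tailN49N0L2, tailN49N0L3, tailN49N0L4, tailN49N0L5, tailN49N0L6, tailN49N0L7, tailN49N0L8, tailN49N0L9, tailN49N0L10, tailN49N0L11, tailN49N0L12, tailN49N0L13, tailN49N0L14, tailN49N0L15, tailN49N0L16, tailN49N0L17, tailN49N0L18, tailN49N0L19].Forall fun l => tailN49N0Base.partUsed tailN49N0Used l = true := by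
  simp only [List.forall_cons, List.Forall]
  exact ⟨tailN49N0L0_ok, tailN49N0L1_ok, tailN49N0L2_ok, tailN49N0L3_ok, tailN49N0L4_ok, tailN49N0L5_ok, tailN49N0L6_ok, tailN49N0L7_ok, tailN49N0L8_ok, tailN49N0L9_ok, tailN49N0L10_ok, tailN49N0L11_ok, tailN49N0L12_ok, tailN49N0L13_ok, tailN49N0L14_ok, tailN49N0L15_ok, tailN49N0L16_ok, tailN49N0L17_ok, tailN49N0L18_ok, tailN49N0L19_ok⟩

theorem tailN49N0_check : tailN49N0.check = true :=
  Cfg.check_of_parts (by decide +kernel) tailN49N0_parts

end Vale.Agent.P237.Quant.TailData
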